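import Mathlib

/-!
Two-sided boxes (behaviours of tape segments) and their composition.
A signal is a pair (direction, state); `true` means moving to the right.
-/

namespace Vale.Agent.P343

/-- A box relates an entering signal to a leaving signal, or to `none` (acceptance). -/
def Box (Q : Type*) := Bool × Q → Option (Bool × Q) → Prop

variable {Q : Type*}

/-- A run started at the boundary between the left box `f false` and the right box `f true`. -/
inductive Mid (f : Bool → Box Q) : Bool × Q → Option (Bool × Q) → Prop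
  | acc {p} : f p.1 p none → Mid f p none
  | exit {p p'} : f p.1 p (some p') → p'.1 = p.1 → Mid f p (some p')
  | bounce {p p' o} : f p.1 p (some p') → p'.1 ≠ p.1 → Mid f p' o → Mid f p o

/-- Continue with `K` if the signal has direction `d`, stop otherwise. -/
def Cont (d : Bool) (K : Box Q) (o' o : Option (Bool × Q)) : Prop :=
  (∃ p', o' = some p' ∧ p'.1 = d ∧ K p' o) ∨ ((∀ p', o' = some p' → p'.1 ≠ d) ∧ o = o')

def Mul2 (f : Bool → Box Q) : Box Q := fun p o => ∃ o', f (!p.1) p o' ∧ Cont p.1 (Mid f) o' o

def side (s : Bool) (x q : Box Q) : Bool → Box Q := fun d => if d = s then x else q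

@[simp] theorem side_same (s : Bool) (x q : Box Q) : side s x q s = x := by simp [side]
@[simp] theorem side_not (s : Bool) (x q : Box Q) : side s x q (!s) = q := by simp [side]
@[simp] theorem side_not' (s : Bool) (x q : Box Q) : side (!s) x q s = q := by simp [side]
theorem side_ne {s d : Bool} (h : d ≠ s) (x q : Box Q) : side s x q d = q := by simp [side, h]
theorem side_swap (s : Bool) (x q : Box Q) : side (!s) x q = side s q x := by
  funext d; cases s <;> cases d <;> simp [side]
theorem side_self (s : Bool) (q : Box Q) : side s q q = fun _ => q := by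
  funext d; simp [side]

theorem Cont.mono {d : Bool} {K K' : Box Q} {o' o}
    (h : Cont d K o' o) (hK : ∀ p, o' = some p → p.1 = d → K p o → K' p o) : Cont d K' o' o := by
  rcases h with ⟨p', h1, h2, h3⟩ | h
  · exact Or.inl ⟨p', h1, h2, hK p' h1 h2 h3⟩
  · exact Or.inr h

theorem Cont.none (d : Bool) (K : Box Q) : Cont d K none none := Or.inr ⟨by simp, rfl⟩

theorem Cont.stop {d : Bool} (K : Box Q) {p : Bool × Q} (h : p.1 ≠ d) :
    Cont d K (some p) (some p) := Or.inr ⟨by rintro _ ⟨⟩; exact h, rfl⟩

theorem Cont.go {d : Bool} {K : Box Q} {p : Bool × Q} {o} (h : p.1 = d) (hK : K p o) :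
    Cont d K (some p) o := Or.inl ⟨p, rfl, h, hK⟩

theorem Cont.of_none {d : Bool} {K : Box Q} {o} (h : Cont d K Option.none o) : o = Option.none := by
  rcases h with ⟨p', h1, -⟩ | h
  · cases h1
  · exact h.2

theorem Cont.of_eq {d : Bool} {K : Box Q} {p : Bool × Q} {o} (h : Cont d K (some p) o)
    (hp : p.1 = d) : K p o := by
  rcases h with ⟨p', h1, -, h3⟩ | h
  · cases h1; exact h3
  · exact absurd hp (h.1 p rfl)

theorem Cont.of_ne {d : Bool} {K : Box Q} {p : Bool × Q} {o} (h : Cont d K (some p) o)
    (hp : p.1 ≠ d) : o = some p := by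
  rcases h with ⟨p', h1, h2, -⟩ | h
  · cases h1; exact absurd h2 hp
  · exact h.2

theorem Mid.of_cont {f : Bool → Box Q} {p o' o} (h : f p.1 p o') (hc : Cont (!p.1) (Mid f) o' o) :
    Mid f p o := by
  cases o' with
  | none => rw [hc.of_none]; exact .acc h
  | some p' =>
    by_cases hp : p'.1 = p.1
    · rw [hc.of_ne (by rw [hp]; simp)]; exact .exit h hp
    · exact .bounce h hp (hc.of_eq (by revert hp; cases p'.1 <;> cases p.1 <;> simp))

theorem Mid.to_cont {f : Bool → Box Q} {p o} (h : Mid f p o) :
    ∃ o', f p.1 p o' ∧ Cont (!p.1) (Mid f) o' o := by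
  cases h with
  | acc h => exact ⟨_, h, .none _ _⟩
  | exit h hp => exact ⟨_, h, .stop _ (by rw [hp]; simp)⟩
  | @bounce _ p' _ h hp hm =>
    exact ⟨_, h, .go (by revert hp; cases p'.1 <;> cases p.1 <;> simp) hm⟩

theorem bne {a b : Bool} (h : a ≠ b) : a = !b := by revert h; cases a <;> cases b <;> simp
theorem bne' {a b : Bool} (h : a ≠ !b) : a = b := by revert h; cases a <;> cases b <;> simp

section three

variable (t : Bool → Box Q) (b : Box Q)

/-- The two boxes adjacent to boundary `s`. -/
def inn (s : Bool) : Bool → Box Q := side s (t s) b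

/-- The three boxes grouped into two around boundary `s`. -/
def grp (s : Bool) : Bool → Box Q := side s (t s) (Mul2 (inn t b (!s)))

inductive Run3 : Bool → Bool × Q → Option (Bool × Q) → Prop
  | oacc {s p} : p.1 = s → t s p none → Run3 s p none
  | oexit {s p p'} : p.1 = s → t s p (some p') → p'.1 = s → Run3 s p (some p')
  | oback {s p p' o} : p.1 = s → t s p (some p') → p'.1 ≠ s → Run3 s p' o → Run3 s p o
  | iacc {s p} : p.1 ≠ s → b p none → Run3 s p none
  | istep {s p p' o} : p.1 ≠ s → b p (some p') → Run3 p'.1 p' o → Run3 s p o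

variable {t b}

theorem run3_of_inn {s p o' o} (h : Mid (inn t b s) p o')
    (hc : Cont (!s) (Run3 t b (!s)) o' o) : Run3 t b s p o := by
  induction h with
  | @acc p h =>
    rw [hc.of_none]
    by_cases hp : p.1 = s
    · exact .oacc hp (by simpa [inn, hp] using h)
    · exact .iacc hp (by simpa [inn, side_ne hp] using h)
  | @exit p p' h hd =>
    by_cases hp : p.1 = s
    · rw [hc.of_ne (by rw [hd, hp]; simp)]
      exact .oexit hp (by simpa [inn, hp] using h) (hd.trans hp)
    · have h1 : p'.1 = !s := hd.trans (bne hp)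
      exact .istep hp (by simpa [inn, side_ne hp] using h) (h1 ▸ hc.of_eq h1)
  | @bounce p p' o' h hd _ ih =>
    by_cases hp : p.1 = s
    · exact .oback hp (by simpa [inn, hp] using h) (hp ▸ hd) (ih hc)
    · have h1 : p'.1 = s := by rw [bne hd, bne hp]; simp
      exact .istep hp (by simpa [inn, side_ne hp] using h) (h1 ▸ ih hc)

theorem run3_of_mul {s p o' o} (hp : p.1 ≠ s) (h : Mul2 (inn t b (!s)) p o')
    (hc : Cont s (Run3 t b s) o' o) : Run3 t b s p o := by
  obtain ⟨o'', h1, h2⟩ := h
  have hb : b p o'' := by simpa [inn, bne hp] using h1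
  cases o'' with
  | none => rw [h2.of_none] at hc; rw [hc.of_none]; exact .iacc hp hb
  | some p' =>
    by_cases hd : p'.1 = p.1
    · have h3 := run3_of_inn (h2.of_eq hd) (o := o) (by simpa using hc)
      refine .istep hp hb ?_
      rw [hd, bne hp]; exact h3
    · rw [h2.of_ne hd] at hc
      have h3 : p'.1 = s := by rw [bne hd, bne hp]; simp
      exact .istep hp hb (h3 ▸ hc.of_eq h3)

theorem run3_of_grp {s p o} (h : Mid (grp t b s) p o) : Run3 t b s p o := by
  induction h with
  | @acc p h =>
    by_cases hp : p.1 = s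
    · exact .oacc hp (by simpa [grp, hp] using h)
    · exact run3_of_mul hp (by simpa [grp, side_ne hp] using h) (.none _ _)
  | @exit p p' h hd =>
    by_cases hp : p.1 = s
    · exact .oexit hp (by simpa [grp, hp] using h) (hd.trans hp)
    · exact run3_of_mul hp (by simpa [grp, side_ne hp] using h) (.stop _ (hd ▸ hp))
  | @bounce p p' o' h hd _ ih =>
    by_cases hp : p.1 = s
    · exact .oback hp (by simpa [grp, hp] using h) (hp ▸ hd) ih
    · have h1 : p'.1 = s := by rw [bne hd, bne hp]; simp
      exact run3_of_mul hp (by simpa [grp, side_ne hp] using h) (.go h1 ih)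

theorem of_run3 (r : Bool) {s p o} (h : Run3 t b s p o) :
    (s = r → ∃ o', Mid (inn t b r) p o' ∧ Cont (!r) (Mid (grp t b (!r))) o' o) ∧
    (s = (!r) → Mid (grp t b (!r)) p o) := by
  induction h with
  | @oacc s p hp h =>
    refine ⟨fun hs => ⟨none, .acc ?_, .none _ _⟩, fun hs => .acc ?_⟩
    · subst hs; simpa [inn, hp] using h
    · subst hs; simpa [grp, hp] using h
  | @oexit s p p' hp h hd =>
    refine ⟨fun hs => ⟨some p', .exit ?_ (hd.trans hp.symm), .stop _ ?_⟩,
      fun hs => .exit ?_ (hd.trans hp.symm)⟩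
    · subst hs; simpa [inn, hp] using h
    · rw [hd, hs]; simp
    · subst hs; simpa [grp, hp] using h
  | @oback s p p' o hp h hd _ ih =>
    refine ⟨fun hs => ?_, fun hs => .bounce ?_ (hp ▸ hd) (ih.2 hs)⟩
    · obtain ⟨o', h1, h2⟩ := ih.1 hs
      refine ⟨o', .bounce ?_ (hp ▸ hd) h1, h2⟩
      subst hs; simpa [inn, hp] using h
    · subst hs; simpa [grp, hp] using h
  | @iacc s p hp h =>
    refine ⟨fun hs => ⟨none, .acc ?_, .none _ _⟩, fun hs => .acc ?_⟩
    · subst hs; simpa [inn, side_ne hp] using h
    · subst hs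
      rw [grp, side_ne hp]
      exact ⟨none, by simpa [inn, bne' hp] using h, .none _ _⟩
  | @istep s p p' o hp h _ ih =>
    refine ⟨fun hs => ?_, fun hs => ?_⟩
    · subst hs
      have hb : inn t b s p.1 p (some p') := by simpa [inn, side_ne hp] using h
      by_cases hd : p'.1 = s
      · obtain ⟨o', h1, h2⟩ := ih.1 hd
        exact ⟨o', .bounce hb (hd ▸ Ne.symm hp) h1, h2⟩
      · exact ⟨some p', .exit hb (by rw [bne hd, bne hp]), .go (bne hd) (ih.2 (bne hd))⟩
    · subst hs
      have hpr : p.1 = r := bne' hp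
      have hb : inn t b r (!p.1) p (some p') := by simpa [inn, hpr] using h
      by_cases hd : p'.1 = r
      · obtain ⟨o', h1, h2⟩ := ih.1 hd
        refine Mid.of_cont (o' := o') ?_ (hpr ▸ h2)
        rw [grp, side_ne hp, Bool.not_not]
        exact ⟨some p', hb, .go (hd.trans hpr.symm) h1⟩
      · refine .bounce ?_ (hpr ▸ hd) (ih.2 (bne hd))
        rw [grp, side_ne hp, Bool.not_not]
        exact ⟨some p', hb, .stop _ (hpr ▸ hd)⟩

theorem grp_iff_run3 {s p o} : Mid (grp t b s) p o ↔ Run3 t b s p o :=
  ⟨run3_of_grp, fun h => by simpa using (of_run3 (!s) h).2 (by simp)⟩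

/-- First passage decomposition. -/
theorem grp_iff {s p o} : Mid (grp t b s) p o ↔
    ∃ o', Mid (inn t b s) p o' ∧ Cont (!s) (Mid (grp t b (!s))) o' o :=
  ⟨fun h => (of_run3 s (run3_of_grp h)).1 rfl, fun ⟨_, h1, h2⟩ =>
    grp_iff_run3.2 (run3_of_inn h1 (h2.mono fun _ _ _ => run3_of_grp))⟩

/-- A signal entering the middle box. -/
theorem grp_enter {s : Bool} {p : Bool × Q} {o} (hp : p.1 ≠ s) : Mid (grp t b s) p o ↔
    (b p none ∧ o = none) ∨ ∃ p', b p (some p') ∧ Mid (grp t b p'.1) p' o := by
  simp only [grp_iff_run3]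
  constructor
  · intro h
    cases h with
    | oacc h => exact absurd h hp
    | oexit h => exact absurd h hp
    | oback h => exact absurd h hp
    | iacc _ h => exact Or.inl ⟨h, rfl⟩
    | istep _ h h' => exact Or.inr ⟨_, h, h'⟩
  · rintro (⟨h, rfl⟩ | ⟨p', h, h'⟩)
    · exact .iacc hp h
    · exact .istep hp h h'

theorem mul2_grp {s : Bool} {p : Bool × Q} {o} (hp : p.1 = !s) :
    Mul2 (grp t b (!s)) p o ↔ Mul2 (grp t b s) p o := by
  have e1 : grp t b (!s) (!p.1) = Mul2 (inn t b s) := by simp [grp, hp]
  have e2 : grp t b s (!p.1) = t s := by simp [grp, hp]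
  have e3 : inn t b s (!p.1) = t s := by simp [inn, hp]
  constructor
  · rintro ⟨o', h1, h2⟩
    rw [e1] at h1
    obtain ⟨o'', h3, h4⟩ := h1
    rw [e3] at h3
    refine ⟨o'', e2 ▸ h3, ?_⟩
    rcases h4 with ⟨p', rfl, h5, h6⟩ | ⟨h5, rfl⟩
    · exact .go h5 (grp_iff.2 ⟨o', h6, hp ▸ h2⟩)
    · rcases h2 with ⟨p', h7, h8, -⟩ | h7
      · exact absurd h8 (h5 p' h7)
      · exact Or.inr h7
  · rintro ⟨o'', h1, h2⟩
    rw [e2] at h1
    rcases h2 with ⟨p', rfl, h5, h6⟩ | ⟨h5, rfl⟩
    · obtain ⟨o', h7, h8⟩ := grp_iff.1 h6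
      exact ⟨o', e1 ▸ ⟨some p', e3 ▸ h1, .go h5 h7⟩, hp ▸ h8⟩
    · exact ⟨o, e1 ▸ ⟨o, e3 ▸ h1, Or.inr ⟨h5, rfl⟩⟩, Or.inr ⟨h5, rfl⟩⟩

end three

/-- The partial identity box. -/
def pid (U : Set (Bool × Q)) : Box Q := fun p o => p ∈ U ∧ o = some p

def Supp (U : Set (Bool × Q)) (x : Box Q) : Prop :=
  ∀ p o, x p o → p ∈ U ∧ ∀ p', o = some p' → p' ∈ U

theorem mid_pid {U : Set (Bool × Q)} {x : Box Q} (hx : Supp U x) (s : Bool) (p o) :
    Mid (side s x (pid U)) p o ↔ if p.1 = s then x p o else pid U p o := by
  constructor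
  · intro h
    induction h with
    | @acc p h => split_ifs with hp
                  · simpa [hp] using h
                  · simpa [side_ne hp] using h
    | @exit p p' h hd => split_ifs with hp
                         · simpa [hp] using h
                         · simpa [side_ne hp] using h
    | @bounce p p' o h hd _ ih =>
      by_cases hp : p.1 = s
      · rw [if_neg (hp ▸ hd)] at ih
        rw [if_pos hp, ih.2]
        simpa [hp] using h
      · rw [side_ne hp] at h
        cases h.2
        exact absurd rfl hd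
  · intro h
    split_ifs at h with hp
    · have h' : side s x (pid U) p.1 p o := by simpa [hp] using h
      cases o with
      | none => exact .acc h'
      | some p' =>
        by_cases hd : p'.1 = p.1
        · exact .exit h' hd
        · refine .bounce h' hd (.exit ?_ rfl)
          rw [side_ne (hp ▸ hd)]
          exact ⟨(hx _ _ h).2 _ rfl, rfl⟩
    · rw [h.2]
      exact .exit (by rw [side_ne hp]; exact ⟨h.1, rfl⟩) rfl

theorem mul2_pid {U : Set (Bool × Q)} {x : Box Q} (hx : Supp U x) (s : Bool) :
    Mul2 (side s x (pid U)) = x := by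
  funext p o
  apply propext
  by_cases hp : p.1 = s
  · have e : side s x (pid U) (!p.1) = pid U := by simp [hp]
    constructor
    · rintro ⟨o', h1, h2⟩
      rw [e] at h1
      rw [h1.2] at h2
      simpa [mid_pid hx, hp] using h2.of_eq rfl
    · intro h
      exact ⟨some p, by rw [e]; exact ⟨(hx _ _ h).1, rfl⟩,
        .go rfl (by simpa [mid_pid hx, hp] using h)⟩
  · have e : side s x (pid U) (!p.1) = x := by simp [bne hp]
    constructor
    · rintro ⟨o', h1, h2⟩
      rw [e] at h1
      rcases h2 with ⟨p', rfl, h3, h4⟩ | ⟨-, rfl⟩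
      · rw [mid_pid hx, if_neg (h3 ▸ hp)] at h4
        rw [h4.2]; exact h1
      · exact h1
    · intro h
      refine ⟨o, by rw [e]; exact h, ?_⟩
      cases o with
      | none => exact .none _ _
      | some p' =>
        by_cases hd : p'.1 = p.1
        · refine .go hd ?_
          rw [mid_pid hx, if_neg (hd ▸ hp)]
          exact ⟨(hx _ _ h).2 _ rfl, rfl⟩
        · exact .stop _ hd

theorem supp_univ (x : Box Q) : Supp Set.univ x := fun _ _ _ => ⟨trivial, fun _ _ => trivial⟩

theorem inn_false (a b c : Box Q) : inn (side true c a) b false = side true b a := by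
  funext d; cases d <;> simp [inn, side]
theorem inn_true (a b c : Box Q) : inn (side true c a) b true = side true c b := by
  funext d; cases d <;> simp [inn, side]
theorem grp_false (a b c : Box Q) :
    grp (side true c a) b false = side true (Mul2 (side true c b)) a := by
  funext d; cases d <;> simp [grp, inn_true, side]
theorem grp_true (a b c : Box Q) :
    grp (side true c a) b true = side true c (Mul2 (side true b a)) := by
  funext d; cases d <;> simp [grp, inn_false, side]

instance : Monoid (Box Q) where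
  mul a b := Mul2 (side true b a)
  one := pid Set.univ
  mul_assoc a b c := by
    change Mul2 (side true c (Mul2 (side true b a))) = Mul2 (side true (Mul2 (side true c b)) a)
    rw [← grp_false, ← grp_true]
    funext p o
    apply propext
    cases hp : p.1
    · exact (mul2_grp (s := true) (by simpa using hp)).symm
    · exact mul2_grp (s := false) (by simpa using hp)
  one_mul a := mul2_pid (supp_univ a) true
  mul_one a := by
    change Mul2 (side true (pid Set.univ) a) = a
    rw [← side_swap true]
    exact mul2_pid (supp_univ a) _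

theorem mul_def (a b : Box Q) : a * b = Mul2 (side true b a) := rfl

theorem mul2_eq (f : Bool → Box Q) : Mul2 f = f false * f true := by
  rw [mul_def]; congr 1; funext d; cases d <;> simp [side]

theorem grp_false' (a b c : Box Q) : grp (side true c a) b false = side true (b * c) a :=
  grp_false a b c
theorem grp_true' (a b c : Box Q) : grp (side true c a) b true = side true c (a * b) :=
  grp_true a b c

theorem pid_mul {U : Set (Bool × Q)} {x : Box Q} (hx : Supp U x) : pid U * x = x :=
  mul2_pid hx true

theorem mul_pid {U : Set (Bool × Q)} {x : Box Q} (hx : Supp U x) : x * pid U = x := by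
  rw [mul_def, ← side_swap true]
  exact mul2_pid hx _

end Vale.Agent.P343
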