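import Mathlib

/-!
Two-way finite automata with endmarkers.
-/

namespace Vale.Agent.P343

/-- Tape symbols: the two endmarkers and the input letters. -/
inductive Sym (A : Type) where
  | lend : Sym A
  | rend : Sym A
  | letter : A → Sym A

/-- Head moves. -/
inductive Move where
  | left : Move
  | stay : Move
  | right : Move

/-- The new head position. -/
def Move.apply : Move → ℕ → ℕ
  | .left, i => i - 1
  | .stay, i => i
  | .right, i => i + 1

/-- A two-way nondeterministic automaton with input alphabet `A` and state set `Q`.
It never moves beyond an endmarker. -/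
structure TwoNFA (A Q : Type) where
  init : Q
  accept : Set Q
  trans : Q → Sym A → Set (Q × Move)
  not_left : ∀ q q', (q', Move.left) ∉ trans q Sym.lend
  not_right : ∀ q q', (q', Move.right) ∉ trans q Sym.rend

variable {A Q : Type}

/-- The tape contents on input `w`. -/
def tape (w : List A) : List (Sym A) := Sym.lend :: (w.map Sym.letter ++ [Sym.rend])

/-- One step between configurations (state, head position). -/
def TwoNFA.Step (M : TwoNFA A Q) (w : List A) (c c' : Q × ℕ) : Prop :=
  ∃ σ m, (tape w)[c.2]? = some σ ∧ (c'.1, m) ∈ M.trans c.1 σ ∧ c'.2 = m.apply c.2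

/-- Some finite computation from the initial configuration reaches an accepting state. -/
def TwoNFA.Accepts (M : TwoNFA A Q) (w : List A) : Prop :=
  ∃ c : Q × ℕ, Relation.ReflTransGen (M.Step w) (M.init, 0) c ∧ c.1 ∈ M.accept

/-- At most one transition for each state and symbol. -/
def TwoNFA.IsDet (M : TwoNFA A Q) : Prop := ∀ q σ, (M.trans q σ).Subsingleton

/-- The head never moves left. -/
def TwoNFA.IsOneWay (M : TwoNFA A Q) : Prop := ∀ q σ q', (q', Move.left) ∉ M.trans q σ

end Vale.Agent.P343
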