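import Vale.Agent.P343.Red

/-!
The combinatorial core: the damage needed to add one edge doubles every 17 points.
-/

namespace Vale.Agent.P343

/-- Binary relations under composition. -/
def BRel (V : Type*) := V → V → Prop

variable {Q V : Type*}

instance : Monoid (BRel V) where
  mul X Y := fun u v => ∃ w, X u w ∧ Y w v
  one := fun u v => u = v
  mul_assoc X Y Z := by
    funext u v
    apply propext
    constructor
    · rintro ⟨w, ⟨w', h1, h2⟩, h3⟩; exact ⟨w', h1, w, h2, h3⟩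
    · rintro ⟨w, h1, w', h2, h3⟩; exact ⟨w', ⟨w, h1, h2⟩, h3⟩
  one_mul X := by
    funext u v
    apply propext
    exact ⟨fun ⟨_, h1, h2⟩ => h1 ▸ h2, fun h => ⟨u, rfl, h⟩⟩
  mul_one X := by
    funext u v
    apply propext
    exact ⟨fun ⟨_, h1, h2⟩ => h2 ▸ h1, fun h => ⟨v, h, rfl⟩⟩

theorem BRel.mul_apply (X Y : BRel V) (u v : V) : (X * Y) u v ↔ ∃ w, X u w ∧ Y w v := Iff.rfl

/-- The identity on `F` together with the edges `T`. -/
def rel (F : Set V) (T : Set (V × V)) : BRel V := fun u v => (u ∈ F ∧ u = v) ∨ (u, v) ∈ T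

theorem rel_mul {F F' F'' : Set V} {T T' T'' : Set (V × V)}
    (h1 : F'' = F ∩ F')
    (h2 : ∀ u v, (u, v) ∈ T'' ↔ ((u, v) ∈ T ∧ v ∈ F') ∨ (u ∈ F ∧ (u, v) ∈ T') ∨
      ∃ w, (u, w) ∈ T ∧ (w, v) ∈ T') : rel F T * rel F' T' = rel F'' T'' := by
  funext u v
  apply propext
  simp only [BRel.mul_apply, rel, h1, h2, Set.mem_inter_iff]
  grind

/-- `X` is supported on `S`. -/
def On (S : Set V) (X : BRel V) : Prop := ∀ u v, X u v → u ∈ S ∧ v ∈ S

theorem On.id_mul {S : Set V} {X : BRel V} (h : On S X) : rel S ∅ * X = X := by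
  funext u v
  apply propext
  have := h u v
  simp only [BRel.mul_apply, rel]
  grind

theorem On.mul_id {S : Set V} {X : BRel V} (h : On S X) : X * rel S ∅ = X := by
  funext u v
  apply propext
  have := h u v
  simp only [BRel.mul_apply, rel]
  grind

theorem On.mul {S : Set V} {X Y : BRel V} (h : On S X) (h' : On S Y) : On S (X * Y) :=
  fun _ _ ⟨_, h1, h2⟩ => ⟨(h _ _ h1).1, (h' _ _ h2).2⟩

structure Lvl (Ψ : Box Q → BRel V → Prop) (g : Box Q) (S : Set V) : Prop where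
  idem : g * g = g
  detg : Det g
  mul : ∀ {x X y Y}, Ψ x X → Ψ y Y → Ψ (x * y) (X * Y)
  loc : ∀ {x X}, Ψ x X → Loc g x
  det : ∀ {x X}, Ψ x X → Det x
  onto : ∀ X, On S X → ∃ x, Ψ x X
  func : ∀ {x X Y}, Ψ x X → Ψ x Y → X = Y

/-- The restriction of `Ψ` to the level of `q`. -/
def sub (Ψ : Box Q → BRel V → Prop) (q : Box Q) (P : BRel V) (S : Set V) :
    Box Q → BRel V → Prop := fun x X => Loc q x ∧ On S X ∧ Ψ x (P * X * P)

theorem sandwich {S : Set V} {P X Y : BRel V} (hX : On S X) (hY : On S Y)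
    {Z Z' : BRel V} (hZ : rel S ∅ * Z * rel S ∅ = Z') (h1 : P * Z = Z) (h2 : Z * P = Z) :
    P * X * P * Z * (P * Y * P) = P * (X * Z' * Y) * P := by
  rw [← hZ]
  simp only [← mul_assoc]
  rw [mul_assoc (P * X) P, h1, mul_assoc (P * X) Z, h2, mul_assoc P X (rel S ∅), hX.mul_id,
    mul_assoc (P * X * Z) (rel S ∅), hY.id_mul]

theorem Lvl.reduce {Ψ : Box Q → BRel V → Prop} {g q : Box Q} {S S' : Set V} {P : BRel V}
    (h : Lvl Ψ g S) (hq : q * q = q) (hP : Ψ q P) (hS : S' ⊆ S)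
    (hI : rel S' ∅ * P * rel S' ∅ = rel S' ∅) : Lvl (sub Ψ q P S') q S' := by
  have hPP : P * P = P := h.func (h.mul hP hP) (by rwa [hq])
  refine ⟨hq, h.det hP, ?_, fun hx => hx.1, fun hx => h.det hx.2.2, ?_, ?_⟩
  · rintro x X y Y ⟨h1, h2, h3⟩ ⟨h4, h5, h6⟩
    refine ⟨h1.mul h4, h2.mul h5, ?_⟩
    have h7 := sandwich h2 h5 hI hPP hPP
    rw [mul_assoc (P * X) P P, hPP, h2.mul_id] at h7
    exact h7 ▸ h.mul h3 h6
  · intro X hX
    obtain ⟨x, hx⟩ := h.onto X fun u v huv => ⟨hS (hX u v huv).1, hS (hX u v huv).2⟩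
    exact ⟨_, .sandwich hq x, hX, h.mul (h.mul hP hx) hP⟩
  · rintro x X Y ⟨-, h2, h3⟩ ⟨-, h5, h6⟩
    have key : ∀ Z, On S' Z → rel S' ∅ * (P * Z * P) * rel S' ∅ = Z := by
      intro Z hZ
      calc _ = rel S' ∅ * (P * (rel S' ∅ * Z * rel S' ∅) * P) * rel S' ∅ := by
            rw [hZ.id_mul, hZ.mul_id]
        _ = (rel S' ∅ * P * rel S' ∅) * Z * (rel S' ∅ * P * rel S' ∅) := by
            simp only [mul_assoc]
        _ = Z := by rw [hI, hZ.id_mul, hZ.mul_id]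
    rw [← key X h2, h.func h3 h6, key Y h5]

/-- `y` behaves like a lift of the identity with the extra edge `(a, b)`. -/
structure Edge (Ψ : Box Q → BRel V → Prop) (g y : Box Q) (S : Set V) (a b : V) : Prop where
  loc : Loc g y
  det : Det y
  act : ∀ {A α B β}, Ψ A α → Ψ B β → Ψ (A * y * B) (α * rel S {(a, b)} * β)

theorem Lvl.edge {Ψ : Box Q → BRel V → Prop} {g q y : Box Q} {S S' : Set V} {P P' : BRel V}
    (h : Lvl Ψ g S) (hP : Ψ q P) (hy : Ψ y P') (hqy : Loc q y) {a b : V}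
    (hI : rel S' ∅ * P' * rel S' ∅ = rel S' {(a, b)}) : Edge (sub Ψ q P S') q y S' a b := by
  have h1 : P * P' = P' := h.func (h.mul hP hy) (by rwa [hqy.1])
  have h2 : P' * P = P' := h.func (h.mul hy hP) (by rwa [hqy.2])
  refine ⟨hqy, h.det hy, ?_⟩
  rintro A α B β ⟨h3, h4, h5⟩ ⟨h6, h7, h8⟩
  refine ⟨(h3.mul hqy).mul h6, ?_, sandwich h4 h7 hI h1 h2 ▸ h.mul (h.mul h5 hy) h8⟩
  rintro u v ⟨w, ⟨w', h9, -⟩, h10⟩
  exact ⟨(h4 _ _ h9).1, (h7 _ _ h10).2⟩

theorem on_rel {S F : Set V} {T : Set (V × V)} (hF : F ⊆ S) (hT : ∀ p ∈ T, p.1 ∈ S ∧ p.2 ∈ S) :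
    On S (rel F T) := by
  rintro u v (⟨h, rfl⟩ | h)
  · exact ⟨hF h, hF h⟩
  · exact hT _ h

theorem base {Ψ : Box Q → BRel V → Prop} {g y : Box Q} {S : Set V} {a b : V} [Finite Q]
    (h : Lvl Ψ g S) (hy : Edge Ψ g y S a b) (ha : a ∈ S) (hb : b ∈ S) (hab : a ≠ b) :
    1 ≤ (ports g \ Fx g y).ncard := by
  rw [Nat.one_le_iff_ne_zero, Ne, Set.ncard_eq_zero, Set.sdiff_eq_empty]
  intro hF
  have e := eq_of_Fx h.idem h.detg hy.det hy.loc hF
  obtain ⟨A, hA⟩ := h.onto (rel S ∅) (on_rel le_rfl (by simp))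
  have h1 := hy.act hA hA
  rw [e, (h.loc hA).2] at h1
  have h2 := congrFun (congrFun (h.func h1 (h.mul hA hA)) a) b
  simp only [BRel.mul_apply, rel] at h2
  grind

/-- An idempotent over the identity of `F` which factors through every cut. -/
theorem exists_cuts {Ψ : Box Q → BRel V → Prop} {g : Box Q} {S F : Set V} {a b : V} [Finite Q]
    (h : Lvl Ψ g S) (ha : a ∈ S) (hb : b ∈ S) (hab : a ≠ b) (hF : F ⊆ S) (haF : a ∉ F)
    (hbF : b ∉ F) (K : Finset (V × V)) (hK : ∀ k ∈ K, k.1 ∈ F ∧ k.2 ∈ F) :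
    ∃ e, e * e = e ∧ Ψ e (rel F ∅) ∧ ∀ k ∈ K, ∃ A B, e = A * B ∧
      Ψ A (rel F {(k.1, a)}) ∧ Ψ B (rel F {(b, k.2)}) := by
  classical
  have : Finite (Box Q) := by unfold Box; infer_instance
  have e1 : rel F ∅ * rel F ∅ = rel F ∅ := rel_mul (by simp) (by simp)
  have e2 : ∀ s ∈ F, rel F ∅ * rel F {(s, a)} = rel F {(s, a)} :=
    fun s hs => rel_mul (by simp) (by simp; grind)
  have e3 : ∀ s ∈ F, rel F {(b, s)} * rel F ∅ = rel F {(b, s)} :=
    fun s hs => rel_mul (by simp) (by simp; grind)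
  have e4 : ∀ s t, rel F {(s, a)} * rel F {(b, t)} = rel F ∅ :=
    fun s t => rel_mul (by simp) (by simp; grind)
  have key : ∃ e, Ψ e (rel F ∅) ∧ ∀ k ∈ K, ∃ A B, e = A * B ∧
      Ψ A (rel F {(k.1, a)}) ∧ Ψ B (rel F {(b, k.2)}) := by
    induction K using Finset.induction_on with
    | empty =>
      obtain ⟨e, he⟩ := h.onto (rel F ∅) (on_rel hF (by simp))
      exact ⟨e, he, by simp⟩
    | insert k K _ ih =>
      obtain ⟨e, he, H⟩ := ih fun k hk => hK k (Finset.mem_insert_of_mem hk)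
      have hk := hK k (Finset.mem_insert_self _ _)
      obtain ⟨A, hA⟩ := h.onto (rel F {(k.1, a)}) (on_rel hF (by simp [hF hk.1, ha]))
      obtain ⟨B, hB⟩ := h.onto (rel F {(b, k.2)}) (on_rel hF (by simp [hF hk.2, hb]))
      have hAB := e4 _ _ ▸ h.mul hA hB
      refine ⟨e * (A * B), e1 ▸ h.mul he hAB, fun k' hk' => ?_⟩
      rcases Finset.mem_insert.1 hk' with rfl | hk''
      · exact ⟨e * A, B, (mul_assoc _ _ _).symm, e2 _ hk.1 ▸ h.mul he hA, hB⟩
      · obtain ⟨A', B', h1, h2, h3⟩ := H k' hk''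
        exact ⟨A', B' * (A * B), by rw [h1, mul_assoc], h2, e3 _ (hK k' hk').2 ▸ h.mul h3 hAB⟩
  obtain ⟨e, he⟩ := key
  obtain ⟨e', he', hi⟩ := exists_idem (fun e => Ψ e (rel F ∅) ∧ ∀ k ∈ K, ∃ A B, e = A * B ∧
      Ψ A (rel F {(k.1, a)}) ∧ Ψ B (rel F {(b, k.2)})) (by
    rintro x y ⟨h1, h2⟩ ⟨h3, -⟩
    refine ⟨e1 ▸ h.mul h1 h3, fun k hk => ?_⟩
    obtain ⟨A, B, h4, h5, h6⟩ := h2 k hk
    exact ⟨A, B * y, by rw [h4, mul_assoc], h5, e3 _ (hK k hk).2 ▸ h.mul h6 h3⟩) he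
  exact ⟨e', hi, he'⟩

/-- Copies of the edge between arbitrary points of `F`, with small damage. -/
theorem exists_copies {Ψ : Box Q → BRel V → Prop} {g y : Box Q} {S F : Set V} {a b : V} [Finite Q]
    (h : Lvl Ψ g S) (hy : Edge Ψ g y S a b) (ha : a ∈ S) (hb : b ∈ S) (hab : a ≠ b) (hF : F ⊆ S)
    (haF : a ∉ F) (hbF : b ∉ F) (K : Finset (V × V)) (hK : ∀ k ∈ K, k.1 ∈ F ∧ k.2 ∈ F) :
    ∃ e, e * e = e ∧ Ψ e (rel F ∅) ∧ ∃ D : Set (Bool × Q),
      D.ncard ≤ K.card * (ports g \ Fx g y).ncard ∧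
      ∀ k ∈ K, ∃ x, Loc e x ∧ Ψ x (rel F {k}) ∧ ports e \ D ⊆ Fx e x := by
  obtain ⟨e, he, hΨ, H⟩ := exists_cuts h ha hb hab hF haF hbF K hK
  refine ⟨e, he, hΨ, ?_⟩
  have key : ∀ k ∈ K, ∃ N : Set (Bool × Q), N.ncard ≤ (ports g \ Fx g y).ncard ∧
      ∃ x, Loc e x ∧ Ψ x (rel F {k}) ∧ ports e \ N ⊆ Fx e x := by
    intro k hk
    obtain ⟨A, B, h1, h2, h3⟩ := H k hk
    have h4 := h.mul hΨ h2
    have h5 := h.mul h3 hΨ
    obtain ⟨N, hN, H'⟩ := exists_cut (q := e) h.detg (h.det h4) (h.det h5) (h.loc h4) (h.loc h5)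
      (by rw [mul_assoc, ← mul_assoc A, ← h1, he, he]) (by rw [← mul_assoc, he])
      (by rw [mul_assoc, he]) (ports g \ Fx g y)
    refine ⟨N, hN, _, ?_, ?_, H' y hy.loc (by intro p hp; simp at hp; tauto)⟩
    · have := Loc.sandwich he (A * y * B)
      simpa only [mul_assoc] using this
    · have h6 := hy.act h4 h5
      have hk' := hK k hk
      have hk1 := hF hk'.1
      obtain ⟨s, t⟩ := k
      have e1 : rel F ∅ * rel F {(s, a)} = rel F {(s, a)} := rel_mul (by simp) (by simp; grind)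
      have e2 : rel F {(b, t)} * rel F ∅ = rel F {(b, t)} := rel_mul (by simp) (by simp; grind)
      have e3 : rel F {(s, a)} * rel S {(a, b)} = rel F {(s, a), (s, b)} :=
        rel_mul (by simpa using hF) (by simp; grind)
      have e4 : rel F {(s, a), (s, b)} * rel F {(b, t)} = rel F {(s, t)} :=
        rel_mul (by simp) (by simp; grind)
      rwa [e1, e2, e3, e4] at h6
  choose! N hN hN' using key
  refine ⟨⋃ k ∈ K, N k, ?_, fun k hk => ?_⟩
  · refine (Finset.set_ncard_biUnion_le _ _).trans ?_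
    exact (Finset.sum_le_card_nsmul _ _ _ hN).trans_eq (smul_eq_mul _ _)
  · obtain ⟨x, h1, h2, h3⟩ := hN' k hk
    exact ⟨x, h1, h2, fun p hp => h3 ⟨hp.1, fun h' => hp.2 (Set.mem_biUnion hk h')⟩⟩

/-- After deleting the relay point `z`, all edges from `L` to `R` have lifts with a common small
damage set. -/
theorem exists_grid {Ψ : Box Q → BRel V → Prop} {g e : Box Q} {S F : Set V} {z : V} [Finite Q]
    (h : Lvl Ψ g S) (hF : F ⊆ S) (hz : z ∉ F) (he : e * e = e) (hΨ : Ψ e (rel (insert z F) ∅))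
    (D : Set (Bool × Q)) (L R : Set V) (hL : L ⊆ F) (hR : R ⊆ F)
    (HL : ∀ s ∈ L, ∃ x, Loc e x ∧ Ψ x (rel (insert z F) {(s, z)}) ∧ ports e \ D ⊆ Fx e x)
    (HR : ∀ t ∈ R, ∃ x, Loc e x ∧ Ψ x (rel (insert z F) {(z, t)}) ∧ ports e \ D ⊆ Fx e x) :
    ∃ q, q * q = q ∧ Ψ q (rel F ∅) ∧ ∃ N : Set (Bool × Q), N.ncard ≤ D.ncard ∧
      ∀ s ∈ L, ∀ t ∈ R, ∃ x, Loc q x ∧ Ψ x (rel F {(s, t)}) ∧ ports q \ N ⊆ Fx q x := by
  have : Finite (Box Q) := by unfold Box; infer_instance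
  have e1 : rel F ∅ * rel F ∅ = rel F ∅ := rel_mul (by simp) (by simp)
  have e2 : rel (insert z F) ∅ * rel F ∅ = rel F ∅ := rel_mul (by simp) (by simp)
  have e3 : rel F ∅ * rel (insert z F) ∅ = rel F ∅ := rel_mul (by simp) (by simp)
  obtain ⟨w, hw⟩ := h.onto (rel F ∅) (on_rel hF (by simp))
  obtain ⟨q, ⟨hq1, hq2⟩, hq⟩ := exists_idem (fun x => Loc e x ∧ Ψ x (rel F ∅))
    (fun x y hx hy => ⟨hx.1.mul hy.1, e1 ▸ h.mul hx.2 hy.2⟩)
    ⟨.sandwich he w, by have := h.mul (h.mul hΨ hw) hΨ; rwa [e2, e3] at this⟩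
  obtain ⟨N, hN, H⟩ := exists_cut (q := q) (h.det hΨ) (h.det hq2) (h.det hq2) hq1 hq1 hq hq hq D
  refine ⟨q, hq, hq2, N, hN, fun s hs t ht => ?_⟩
  obtain ⟨x, h1, h2, h3⟩ := HL s hs
  obtain ⟨y, h4, h5, h6⟩ := HR t ht
  refine ⟨_, .sandwich hq _, ?_, H _ (h1.mul h4) fun p hp => Fx_mul h1 h4 (h3 hp) (h6 hp)⟩
  have h7 := h.mul (h.mul hq2 (h.mul h2 h5)) hq2
  have hs' := hL hs
  have ht' := hR ht
  have e4 : rel (insert z F) {(s, z)} * rel (insert z F) {(z, t)}
      = rel (insert z F) {(s, z), (z, t), (s, t)} := rel_mul (by simp) (by simp; grind)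
  have e5 : rel F ∅ * rel (insert z F) {(s, z), (z, t), (s, t)} = rel F {(s, z), (s, t)} :=
    rel_mul (by simp) (by simp; grind)
  have e6 : rel F {(s, z), (s, t)} * rel F ∅ = rel F {(s, t)} :=
    rel_mul (by simp) (by simp; grind)
  rwa [e4, e5, e6] at h7

/-- The chain of idempotents obtained by adding the edges one at a time. -/
theorem chain {Ψ : Box Q → BRel V → Prop} {g q : Box Q} {S F : Set V} [Finite Q]
    (h : Lvl Ψ g S) (hq : q * q = q) (hΨ : Ψ q (rel F ∅)) (N : Set (Bool × Q)) (L R : Set V)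
    (hL : L ⊆ F) (hR : R ⊆ F) (hLR : Disjoint L R)
    (H : ∀ s ∈ L, ∀ t ∈ R, ∃ x, Loc q x ∧ Ψ x (rel F {(s, t)}) ∧ ports q \ N ⊆ Fx q x) (m : ℕ)
    (IH : ∀ (T : Set (V × V)) s t r r', s ∈ L → t ∈ R → (s, t) ∉ T → (∀ k ∈ T, k.1 ∈ L ∧ k.2 ∈ R) →
      r * r = r → Ψ r (rel F T) → Loc r r' → Ψ r' (rel F (insert (s, t) T)) →
      m ≤ (ports r \ Fx r r').ncard)
    (T : Finset (V × V)) (hT : ∀ k ∈ T, k.1 ∈ L ∧ k.2 ∈ R) :
    ∃ r, r * r = r ∧ Ψ r (rel F T) ∧ Loc q r ∧ ports q \ N ⊆ Fx q r ∧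
      2 * (ports r).ncard + T.card * m ≤ 2 * (ports q).ncard := by
  classical
  have : Finite (Box Q) := by unfold Box; infer_instance
  induction T using Finset.induction_on with
  | empty =>
    exact ⟨q, hq, by simpa using hΨ, ⟨hq, hq⟩,
      Set.sdiff_subset.trans (Fx_self hq (h.det hΨ)), by simp⟩
  | insert k T hk ih =>
    have hT' : ∀ k ∈ T, k.1 ∈ L ∧ k.2 ∈ R := fun k hk => hT k (Finset.mem_insert_of_mem hk)
    obtain ⟨r, h1, h2, h3, h4, h5⟩ := ih hT'
    obtain ⟨s, t⟩ := k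
    obtain ⟨hs, ht⟩ := hT _ (Finset.mem_insert_self _ _)
    obtain ⟨x, h6, h7, h8⟩ := H s hs t ht
    have key : ∀ T1 T2 : Set (V × V), (∀ k ∈ T1, k.1 ∈ L ∧ k.2 ∈ R) →
        (∀ k ∈ T2, k.1 ∈ L ∧ k.2 ∈ R) → rel F T1 * rel F T2 = rel F (T1 ∪ T2) := by
      intro T1 T2 k1 k2
      refine rel_mul (by simp) fun u v => ⟨?_, ?_⟩
      · rintro (h | h)
        · exact Or.inl ⟨h, hR (k1 _ h).2⟩
        · exact Or.inr (Or.inl ⟨hL (k2 _ h).1, h⟩)
      · rintro (h | h | ⟨w, h, h'⟩)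
        · exact Or.inl h.1
        · exact Or.inr h.2
        · exact absurd (k1 _ h).2 (Set.disjoint_left.1 hLR (k2 _ h').1)
    have k1 : ∀ k ∈ (T : Set (V × V)), k.1 ∈ L ∧ k.2 ∈ R := hT'
    have k2 : ∀ k ∈ insert (s, t) (T : Set (V × V)), k.1 ∈ L ∧ k.2 ∈ R := by
      rintro k (rfl | hk)
      exacts [⟨hs, ht⟩, k1 k hk]
    obtain ⟨r', ⟨h9, h10, h11⟩, h12⟩ := exists_idem
      (fun x => Loc r x ∧ Ψ x (rel F (insert (s, t) T)) ∧ ports q \ N ⊆ Fx q x)
      (fun x y hx hy => ⟨hx.1.mul hy.1, by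
        have := h.mul hx.2.1 hy.2.1
        rwa [key _ _ k2 k2, Set.union_self] at this,
        fun p hp => Fx_mul (h3.trans hx.1) (h3.trans hy.1) (hx.2.2 hp) (hy.2.2 hp)⟩)
      (x := r * x * r) ⟨.sandwich h1 x, by
        have := h.mul (h.mul h2 h7) h2
        rwa [key _ _ k1 (by simp [hs, ht]), Set.union_singleton, key _ _ k2 k1,
          Set.union_eq_left.2 (Set.subset_insert _ _)] at this,
        fun p hp => Fx_mul (h3.mul h6) h3 (Fx_mul h3 h6 (h4 hp) (h8 hp)) (h4 hp)⟩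
    refine ⟨r', h12, by simpa using h10, h3.trans h9, h11, ?_⟩
    have h13 := IH T s t r r' hs ht (by simpa using hk) k1 h1 h2 h9 h10
    have h14 := dam_idem' (h.det h2) h12 (h.det h10) h9
    rw [Finset.card_insert_of_notMem hk, add_mul]
    omega

theorem main [Finite Q] (k : ℕ) : ∀ (Ψ : Box Q → BRel V → Prop) (g y : Box Q) (S : Finset V)
    (a b : V), Lvl Ψ g S → Edge Ψ g y S a b → a ∈ S → b ∈ S → a ≠ b → 2 + 17 * k ≤ S.card →
    2 ^ k ≤ (ports g \ Fx g y).ncard := by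
  classical
  induction k with
  | zero => exact fun Ψ g y S a b h hy ha hb hab _ => base h hy ha hb hab
  | succ k ih =>
    intro Ψ g y S a b h hy ha hb hab hS
    have c1 : 17 * k + 17 ≤ ((S.erase a).erase b).card := by
      rw [Finset.card_erase_of_mem (by simp [hb, hab.symm]), Finset.card_erase_of_mem ha]
      omega
    obtain ⟨z, hz⟩ : ((S.erase a).erase b).Nonempty := Finset.card_pos.1 (by omega)
    set F := ((S.erase a).erase b).erase z with hFdef
    have c2 : 17 * k + 16 ≤ F.card := by rw [Finset.card_erase_of_mem hz]; omega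
    obtain ⟨L, hL, cL⟩ := Finset.exists_subset_card_eq (s := F) (n := 8) (by omega)
    have c3 : 17 * k + 8 ≤ (F \ L).card := by rw [Finset.card_sdiff_of_subset hL]; omega
    obtain ⟨R, hR, cR⟩ := Finset.exists_subset_card_eq (s := F \ L) (n := 8) (by omega)
    have c4 : 17 * k ≤ ((F \ L) \ R).card := by rw [Finset.card_sdiff_of_subset hR]; omega
    have hRF : R ⊆ F := hR.trans Finset.sdiff_subset
    have hLR : Disjoint L R := Finset.disjoint_sdiff.mono_right hR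
    have hFS : F ⊆ S := fun x hx => by simp [hFdef] at hx; tauto
    have hz' : z ≠ b ∧ z ≠ a ∧ z ∈ S := by simpa using hz
    have haF : a ∉ F := by simp [hFdef]
    have hbF : b ∉ F := by simp [hFdef]
    have hzF : z ∉ F := by simp [hFdef]
    obtain ⟨e, he, hΨ, D, hD, H⟩ := exists_copies (F := insert z (F : Set V)) h hy ha hb hab
      (Set.insert_subset hz'.2.2 hFS) (by simp [haF, hz'.2.1.symm]) (by simp [hbF, hz'.1.symm])
      (L.image (fun s => (s, z)) ∪ R.image (fun t => (z, t))) (by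
        intro k hk
        simp only [Finset.mem_union, Finset.mem_image] at hk
        rcases hk with ⟨s, hs, rfl⟩ | ⟨s, hs, rfl⟩
        · simp [hL hs]
        · simp [hRF hs])
    obtain ⟨q, hq, hΨq, N, hN, H'⟩ := exists_grid h hFS hzF he hΨ D L R hL hRF
      (fun s hs => H _ (Finset.mem_union_left _ (Finset.mem_image_of_mem _ hs)))
      (fun s hs => H _ (Finset.mem_union_right _ (Finset.mem_image_of_mem _ hs)))
    obtain ⟨r, -, -, h3, h4, h5⟩ := chain h hq hΨq N L R hL hRF (by simpa using hLR) H' (2 ^ k) (by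
      intro T s t r r' hs ht hst hT hr hΨr hrr' hΨr'
      have hs' : s ∈ L := hs
      have ht' : t ∈ R := ht
      have hsR : s ∉ R := Finset.disjoint_left.1 hLR hs'
      have hst' : s ≠ t := fun h => hsR (h ▸ ht')
      have hsub : ((insert s (insert t ((F \ L) \ R)) : Finset V) : Set V) ⊆ F := by
        intro x hx
        have := hL hs'
        have := hRF ht'
        simp at hx ⊢
        grind
      have hrel : ∀ T' : Set (V × V), (∀ k ∈ T', k.1 ∈ L ∧ k.2 ∈ R) → ∀ T'' : Set (V × V),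
          (∀ u v, (u, v) ∈ T'' ↔ u = s ∧ v = t ∧ (s, t) ∈ T') →
          rel ((insert s (insert t ((F \ L) \ R)) : Finset V) : Set V) ∅ * rel F T' *
            rel ((insert s (insert t ((F \ L) \ R)) : Finset V) : Set V) ∅ =
          rel ((insert s (insert t ((F \ L) \ R)) : Finset V) : Set V) T'' := by
        intro T' hT' T'' hT''
        rw [rel_mul (F'' := ((insert s (insert t ((F \ L) \ R)) : Finset V) : Set V))
          (T'' := {k | k.1 = s ∧ k ∈ T'}) (Set.inter_eq_left.2 hsub).symm]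
        · refine rel_mul (by simp) fun u v => ?_
          have := hT' (u, v)
          have : v ∈ L → v ∉ R := fun h => Finset.disjoint_left.1 hLR h
          simp [hT'']
          grind
        · intro u v
          have := hT' (u, v)
          have : u ∈ L → u ∉ R := fun h => Finset.disjoint_left.1 hLR h
          simp
          grind
      refine ih _ r r' (insert s (insert t ((F \ L) \ R))) s t
        (h.reduce hr hΨr (hsub.trans hFS) (hrel T hT ∅ (by simp [hst])))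
        (h.edge hΨr hΨr' hrr' (hrel _ ?_ _ (by simp))) (by simp) (by simp) hst' ?_
      · rintro k (rfl | hk)
        exacts [⟨hs, ht⟩, hT k hk]
      · rw [Finset.card_insert_of_notMem (by simp [hst', hs']),
          Finset.card_insert_of_notMem (by simp [ht'])]
        omega) (L ×ˢ R) (by simp)
    have h6 : (ports q).ncard ≤ (ports r).ncard + N.ncard := by
      refine (Set.ncard_le_ncard ?_).trans (Set.ncard_union_le _ _)
      intro p hp
      by_cases hpN : p ∈ N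
      · exact Or.inr hpN
      · exact Or.inl (Fx_sub h3 (h4 ⟨hp, hpN⟩))
    have h7 : (L.image (fun s => (s, z)) ∪ R.image (fun t => (z, t))).card ≤ 16 :=
      (Finset.card_union_le _ _).trans (by
        have := Finset.card_image_le (s := L) (f := fun s => (s, z))
        have := Finset.card_image_le (s := R) (f := fun t => (z, t))
        omega)
    have h8 := hD.trans (Nat.mul_le_mul_right _ h7)
    rw [Finset.card_product, cL, cR] at h5
    rw [pow_succ]
    omega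

/-- The lower bound for a multiplicative functional labelling of deterministic boxes. -/
theorem lower [Finite Q] [Fintype V] (Φ : Box Q → BRel V → Prop)
    (mul : ∀ {x X y Y}, Φ x X → Φ y Y → Φ (x * y) (X * Y)) (det : ∀ {x X}, Φ x X → Det x)
    (onto : ∀ X, ∃ x, Φ x X) (func : ∀ {x X Y}, Φ x X → Φ x Y → X = Y) (k : ℕ)
    (hk : 2 + 17 * k ≤ Fintype.card V) : 2 ^ k ≤ 2 * Nat.card Q := by
  obtain ⟨a, b, hab⟩ := Fintype.exists_pair_of_one_lt_card (α := V) (by omega)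
  have hl : ∀ x : Box Q, Loc 1 x := fun x => ⟨one_mul x, mul_one x⟩
  obtain ⟨y, hy⟩ := onto (rel (Finset.univ : Finset V) {(a, b)})
  have h1 : Det (1 : Box Q) := fun p o o' h h' => h.2.trans h'.2.symm
  have := main k Φ 1 y Finset.univ a b
    ⟨mul_one _, h1, mul, fun _ => hl _, det, fun X _ => onto X, func⟩
    ⟨hl _, det hy, fun hA hB => mul (mul hA hy) hB⟩ (by simp) (by simp) hab hk
  refine this.trans ((Set.ncard_le_card _).trans_eq ?_)
  simp

end Vale.Agent.P343
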