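import Vale.Agent.P343.Defs
import Vale.Agent.P343.Main

/-!
Boxes of tape segments of an automaton, and one-way liveness.
-/

namespace Vale.Agent.P343

variable {A Q : Type}

theorem tape_letter (w : List A) (i : ℕ) (a : A) :
    (tape w)[i + 1]? = some (.letter a) ↔ w[i]? = some a := by
  simp only [tape, List.getElem?_cons_succ, List.getElem?_append, List.length_map,
    List.getElem?_map]
  split_ifs with h
  · simp [List.getElem?_eq_getElem h]
  · simp [List.getElem?_eq_none (not_lt.1 h), List.getElem?_singleton]

theorem tape_lend (w : List A) (i : ℕ) : (tape w)[i]? = some .lend ↔ i = 0 := by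
  cases i with
  | zero => simp [tape]
  | succ i =>
    simp only [tape, List.getElem?_cons_succ, List.getElem?_append, List.length_map,
      List.getElem?_map]
    split_ifs with h <;> simp [List.getElem?_singleton]

theorem tape_rend (w : List A) (i : ℕ) : (tape w)[i]? = some .rend ↔ i = w.length + 1 := by
  cases i with
  | zero => simp [tape]
  | succ i =>
    simp only [tape, List.getElem?_cons_succ, List.getElem?_append, List.length_map,
      List.getElem?_map]
    split_ifs with h
    · simp; omega
    · simp [List.getElem?_singleton]; omega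

theorem tape_length (w : List A) : (tape w).length = w.length + 2 := by simp [tape]

/-- The behaviour of the automaton on one cell. -/
inductive Cell (M : TwoNFA A Q) (σ : Sym A) : Q → Option (Bool × Q) → Prop
  | acc {q} : q ∈ M.accept → Cell M σ q none
  | stay {q q' o} : q ∉ M.accept → (q', .stay) ∈ M.trans q σ → Cell M σ q' o → Cell M σ q o
  | left {q q'} : q ∉ M.accept → (q', .left) ∈ M.trans q σ → Cell M σ q (some (false, q'))
  | right {q q'} : q ∉ M.accept → (q', .right) ∈ M.trans q σ → Cell M σ q (some (true, q'))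

def cell (M : TwoNFA A Q) (σ : Sym A) : Box Q := fun p o => Cell M σ p.2 o

def box (M : TwoNFA A Q) (l : List (Sym A)) : Box Q := (l.map (cell M)).prod

theorem cell_det {M : TwoNFA A Q} (hM : M.IsDet) (σ : Sym A) : Det (cell M σ) := by
  rintro ⟨d, q⟩ o o' h h'
  change Cell M σ q o at h
  change Cell M σ q o' at h'
  induction h with
  | acc h => cases h' <;> first | rfl | contradiction
  | stay h1 h2 _ ih =>
    cases h' with
    | acc => contradiction
    | stay _ h3 h4 => cases hM _ _ h2 h3; exact ih h4
    | left _ h3 => cases hM _ _ h2 h3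
    | right _ h3 => cases hM _ _ h2 h3
  | left h1 h2 =>
    cases h' with
    | acc => contradiction
    | stay _ h3 h4 => cases hM _ _ h2 h3
    | left _ h3 => cases hM _ _ h2 h3; rfl
    | right _ h3 => cases hM _ _ h2 h3
  | right h1 h2 =>
    cases h' with
    | acc => contradiction
    | stay _ h3 h4 => cases hM _ _ h2 h3
    | left _ h3 => cases hM _ _ h2 h3
    | right _ h3 => cases hM _ _ h2 h3; rfl

theorem box_append (M : TwoNFA A Q) (l l' : List (Sym A)) :
    box M (l ++ l') = box M l * box M l' := by simp [box]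

theorem box_cons (M : TwoNFA A Q) (σ : Sym A) (l : List (Sym A)) :
    box M (σ :: l) = cell M σ * box M l := by simp [box]

theorem box_det {M : TwoNFA A Q} (hM : M.IsDet) (l : List (Sym A)) : Det (box M l) := by
  induction l with
  | nil => exact fun p o o' h h' => h.2.trans h'.2.symm
  | cons σ l ih => rw [box_cons]; exact (cell_det hM σ).mul ih

/-- Acceptance from a configuration. -/
def Acc (M : TwoNFA A Q) (w : List A) (c : Q × ℕ) : Prop :=
  ∃ c' : Q × ℕ, Relation.ReflTransGen (M.Step w) c c' ∧ c'.1 ∈ M.accept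

theorem Acc.head {M : TwoNFA A Q} {w : List A} {c c'} (h : M.Step w c c') (h' : Acc M w c') :
    Acc M w c := by
  obtain ⟨c'', h1, h2⟩ := h'
  exact ⟨c'', .head h h1, h2⟩

/-- The configuration of a signal crossing boundary `b`. -/
def conf (p : Bool × Q) (b : ℕ) : Q × ℕ := (p.2, if p.1 then b else b - 1)

def Sem (M : TwoNFA A Q) (w : List A) (i j : ℕ) (x : Box Q) : Prop :=
  ∀ p o, x p o → (∀ p', o = some p' → Acc M w (conf p' (if p'.1 then j else i))) →
    Acc M w (conf p (if p.1 then i else j))

theorem Sem.mul {M : TwoNFA A Q} {w : List A} {i j k : ℕ} {x y : Box Q} (hx : Sem M w i j x)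
    (hy : Sem M w j k y) : Sem M w i k (x * y) := by
  have key : ∀ p o, Mid (side true y x) p o →
      (∀ p', o = some p' → Acc M w (conf p' (if p'.1 then k else i))) → Acc M w (conf p j) := by
    intro p o h
    induction h with
    | @acc p h =>
      intro _
      obtain ⟨d, q⟩ := p
      cases d
      · exact hx _ _ h (by simp)
      · exact hy _ _ h (by simp)
    | @exit p p' h hd =>
      intro H
      obtain ⟨d, q⟩ := p
      obtain ⟨d', q'⟩ := p'
      cases hd
      cases d
      · exact hx _ _ h (by rintro _ ⟨⟩; exact H _ rfl)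
      · exact hy _ _ h (by rintro _ ⟨⟩; exact H _ rfl)
    | @bounce p p' o h hd _ ih =>
      intro H
      obtain ⟨d, q⟩ := p
      obtain ⟨d', q'⟩ := p'
      cases bne hd
      cases d
      · exact hx _ _ h (by rintro _ ⟨⟩; exact ih H)
      · exact hy _ _ h (by rintro _ ⟨⟩; exact ih H)
  rintro ⟨d, q⟩ o ⟨o', h1, h2⟩ H
  cases d
  · refine hy _ _ h1 ?_
    rintro ⟨d', q'⟩ rfl
    cases d'
    · exact key _ _ (h2.of_eq rfl) H
    · exact H _ (h2.of_ne (by simp))
  · refine hx _ _ h1 ?_
    rintro ⟨d', q'⟩ rfl
    cases d'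
    · exact H _ (h2.of_ne (by simp))
    · exact key _ _ (h2.of_eq rfl) H

theorem sem_cell {M : TwoNFA A Q} {w : List A} {i : ℕ} {σ} (h : (tape w)[i]? = some σ) :
    Sem M w i (i + 1) (cell M σ) := by
  rintro ⟨d, q⟩ o hc H
  have e : conf (d, q) (if d then i else i + 1) = (q, i) := by cases d <;> simp [conf]
  rw [e]
  clear e
  change Cell M σ q o at hc
  induction hc with
  | acc h => exact ⟨_, .refl, h⟩
  | stay _ h2 _ ih => exact Acc.head ⟨σ, _, h, h2, rfl⟩ (ih H)
  | left _ h2 => exact Acc.head ⟨σ, _, h, h2, rfl⟩ (H _ rfl)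
  | right _ h2 => exact Acc.head ⟨σ, _, h, h2, rfl⟩ (H _ rfl)

theorem sem_box {M : TwoNFA A Q} {w : List A} (l : List (Sym A)) :
    ∀ i, (∀ k σ, l[k]? = some σ → (tape w)[i + k]? = some σ) →
      Sem M w i (i + l.length) (box M l) := by
  induction l with
  | nil =>
    rintro i - p o ⟨-, rfl⟩ H
    simpa using H _ rfl
  | cons σ l ih =>
    intro i H
    rw [box_cons]
    refine (sem_cell (H 0 σ rfl)).mul ?_
    have := ih (i + 1) fun k τ hk => by
      rw [add_assoc, add_comm 1 k]; exact H (k + 1) τ hk
    rwa [add_assoc, add_comm 1] at this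

theorem accepts_of_box {M : TwoNFA A Q} {w : List A} (h : box M (tape w) (true, M.init) none) :
    M.Accepts w :=
  sem_box (tape w) 0 (by simp) _ _ h (by simp)

/-- A run started at boundary `i` of the tape. -/
def At (M : TwoNFA A Q) (w : List A) (i : ℕ) : Box Q :=
  Mid (side true (box M ((tape w).drop i)) (box M ((tape w).take i)))

theorem at_iff {M : TwoNFA A Q} {w : List A} {i : ℕ} {σ} (h : (tape w)[i]? = some σ) (d : Bool)
    (q : Q) : At M w (if d then i else i + 1) (d, q) none ↔ Cell M σ q none ∨
      ∃ p', Cell M σ q (some p') ∧ At M w (if p'.1 then i + 1 else i) p' none := by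
  obtain ⟨hi, rfl⟩ := List.getElem?_eq_some_iff.1 h
  have key : ∀ s, Mid (grp (side true (box M ((tape w).drop (i + 1))) (box M ((tape w).take i)))
      (cell M (tape w)[i]) s) = At M w (if s then i + 1 else i) := by
    intro s
    cases s
    · rw [grp_false', ← box_cons, ← List.drop_eq_getElem_cons hi]; rfl
    · rw [grp_true', At, if_pos rfl, List.take_succ_eq_append_getElem hi, box_append]
      simp [box]
  have := grp_enter (t := side true (box M ((tape w).drop (i + 1))) (box M ((tape w).take i)))
    (b := cell M (tape w)[i]) (s := !d) (p := (d, q)) (o := none) (by simp)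
  simp only [key, and_true] at this
  cases d <;> exact this

theorem box_of_accepts {M : TwoNFA A Q} {w : List A} (h : M.Accepts w) :
    box M (tape w) (true, M.init) none := by
  have key : ∀ c c' : Q × ℕ, Relation.ReflTransGen (M.Step w) c c' → c'.1 ∈ M.accept →
      ∀ σ, (tape w)[c.2]? = some σ → Cell M σ c.1 none ∨
        ∃ p', Cell M σ c.1 (some p') ∧ At M w (if p'.1 then c.2 + 1 else c.2) p' none := by
    intro c c' h hc
    induction h using Relation.ReflTransGen.head_induction_on with
    | refl => exact fun σ _ => Or.inl (.acc hc)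
    | @head a b h _ ih =>
      intro σ hσ
      obtain ⟨q, i⟩ := a
      obtain ⟨q', j⟩ := b
      obtain ⟨τ, m, h1, h2, h3⟩ := h
      cases hσ.symm.trans h1
      by_cases hq : q ∈ M.accept
      · exact Or.inl (.acc hq)
      have hi := (List.getElem?_eq_some_iff.1 hσ).1
      cases m with
      | stay =>
        cases h3
        rcases ih σ hσ with h | ⟨p', h, h'⟩
        · exact Or.inl (.stay hq h2 h)
        · exact Or.inr ⟨p', .stay hq h2 h, h'⟩
      | left =>
        cases i with
        | zero =>
          cases hσ.symm.trans ((tape_lend w 0).2 rfl)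
          exact absurd h2 (M.not_left _ _)
        | succ i =>
          obtain rfl : i = j := h3.symm
          have h4 := List.getElem?_eq_getElem (l := tape w) (i := i) (by simp at hi; omega)
          exact Or.inr ⟨_, .left hq h2, (at_iff h4 false q').2 (ih _ h4)⟩
      | right =>
        cases h3
        have h5 : i ≠ w.length + 1 := fun e => by
          cases hσ.symm.trans ((tape_rend w i).2 e)
          exact absurd h2 (M.not_right _ _)
        have h4 := List.getElem?_eq_getElem (l := tape w) (i := i + 1) (by
          rw [tape_length] at hi ⊢; simp at hi; omega)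
        exact Or.inr ⟨_, .right hq h2, (at_iff h4 true q').2 (ih _ h4)⟩
  obtain ⟨c, h1, h2⟩ := h
  have h0 := (tape_lend w 0).2 rfl
  have := (at_iff h0 true M.init).2 (key _ _ h1 h2 _ h0)
  simpa [At, box] using (mid_pid (supp_univ (box M (tape w))) true _ _).1 this

/-- Acceptance depends only on the box of a factor. -/
theorem accepts_congr {M : TwoNFA A Q} {w w' : List A} (l r : List A)
    (h : box M (w.map .letter) = box M (w'.map .letter)) (hw : M.Accepts (l ++ w ++ r)) :
    M.Accepts (l ++ w' ++ r) := by
  have := box_of_accepts hw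
  refine accepts_of_box ?_
  simp only [tape, List.map_append, box_cons, box_append] at this ⊢
  rwa [← h]

/-- The one-way automaton for liveness. -/
def owl (V : Type) : TwoNFA (BRel V) (Option (Option V)) where
  init := none
  accept := {some none}
  trans q σ := {c | (q = none ∧ σ = .lend ∧ c.2 = .right ∧ ∃ v, c.1 = some (some v)) ∨
    (∃ u X v, q = some (some u) ∧ σ = .letter X ∧ c.2 = .right ∧ c.1 = some (some v) ∧ X u v) ∨
    (∃ u, q = some (some u) ∧ σ = .rend ∧ c.2 = .stay ∧ c.1 = some none)}
  not_left := by simp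
  not_right := by simp

theorem owl_oneWay (V : Type) : (owl V).IsOneWay := by
  intro q σ q'
  simp [owl]

theorem owl_accepts {V : Type} (w : List (BRel V)) :
    (owl V).Accepts w ↔ ∃ u v, w.prod u v := by
  constructor
  · rintro ⟨c, h1, h2⟩
    have key : (∀ v, c.1 = some (some v) → ∃ i u, c.2 = i + 1 ∧ (w.take i).prod u v) ∧
        (c.1 = some none → ∃ u v, w.prod u v) := by
      clear h2
      induction h1 with
      | refl => simp [owl]
      | @tail b c _ h ih =>
        obtain ⟨σ, m, h1, h2, h3⟩ := h
        rcases h2 with ⟨h4, rfl, h5, v, h6⟩ | ⟨u, X, v, h4, rfl, h5, h6, h7⟩ |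
          ⟨u, h4, rfl, h5, h6⟩
        · cases h5
          refine ⟨fun v' _ => ⟨0, v', ?_, rfl⟩, fun h => by simp_all⟩
          rw [h3, (tape_lend _ _).1 h1]; rfl
        · cases h5
          refine ⟨fun v' hv => ?_, fun h => by simp_all⟩
          obtain ⟨i, u', h8, h9⟩ := ih.1 u h4
          rw [h8, tape_letter] at h1
          obtain ⟨hi, rfl⟩ := List.getElem?_eq_some_iff.1 h1
          refine ⟨i + 1, u', by rw [h3, h8]; rfl, ?_⟩
          rw [List.take_succ_eq_append_getElem hi, List.prod_append, List.prod_singleton]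
          cases h6.symm.trans hv
          exact ⟨u, h9, h7⟩
        · refine ⟨fun v' hv => by simp_all, fun _ => ?_⟩
          obtain ⟨i, u', h8, h9⟩ := ih.1 u h4
          rw [h8, tape_rend] at h1
          cases h1
          exact ⟨u', u, by simpa using h9⟩
    exact key.2 h2
  · rintro ⟨u, v, h⟩
    have key : ∀ i ≤ w.length, ∀ v, (w.take i).prod u v →
        Relation.ReflTransGen ((owl V).Step w) (none, 0) (some (some v), i + 1) := by
      intro i
      induction i with
      | zero =>
        exact fun _ v _ => .single ⟨_, .right, (tape_lend _ _).2 rfl,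
          Or.inl ⟨rfl, rfl, rfl, v, rfl⟩, rfl⟩
      | succ i ih =>
        intro hi v hv
        rw [List.take_succ_eq_append_getElem hi, List.prod_append, List.prod_singleton] at hv
        obtain ⟨v', h1, h2⟩ := hv
        exact .tail (ih (by omega) v' h1) ⟨_, .right,
          (tape_letter _ _ _).2 (List.getElem?_eq_getElem hi),
          Or.inr (Or.inl ⟨v', _, v, rfl, rfl, rfl, rfl, h2⟩), rfl⟩
    exact ⟨(some none, w.length + 1), .tail (key _ le_rfl v (by simpa using h))
      ⟨_, .stay, (tape_rend _ _).2 rfl, Or.inr (Or.inr ⟨v, rfl, rfl, rfl, rfl⟩), rfl⟩, rfl⟩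

theorem owl_lower {V : Type} [Fintype V] [Finite Q] (N : TwoNFA (BRel V) Q) (hN : N.IsDet)
    (h : ∀ w, N.Accepts w ↔ (owl V).Accepts w) (k : ℕ) (hk : 2 + 17 * k ≤ Fintype.card V) :
    2 ^ k ≤ 2 * Nat.card Q := by
  refine lower (fun x X => ∃ w : List (BRel V), x = box N (w.map .letter) ∧ X = w.prod)
    ?_ ?_ (fun X => ⟨_, [X], rfl, by simp⟩) ?_ k hk
  · rintro _ _ _ _ ⟨w, rfl, rfl⟩ ⟨w', rfl, rfl⟩
    exact ⟨w ++ w', by rw [List.map_append, box_append], by simp⟩
  · rintro _ _ ⟨w, rfl, rfl⟩
    exact box_det hN _
  · have key : ∀ w w' : List (BRel V), box N (w.map .letter) = box N (w'.map .letter) →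
        ∀ a b, w.prod a b → w'.prod a b := by
      intro w w' e a b hab
      have h1 := accepts_congr [rel {a} ∅] [rel {b} ∅] e ((h _).2 ((owl_accepts _).2 ⟨a, b, by
        simp only [List.prod_append, List.prod_singleton]
        exact ⟨b, ⟨a, Or.inl ⟨rfl, rfl⟩, hab⟩, Or.inl ⟨rfl, rfl⟩⟩⟩))
      obtain ⟨u, v, h2⟩ := (owl_accepts _).1 ((h _).1 h1)
      simp only [List.prod_append, List.prod_singleton, BRel.mul_apply, rel] at h2
      grind
    rintro _ _ _ ⟨w, rfl, rfl⟩ ⟨w', e, rfl⟩
    funext a b
    exact propext ⟨key w w' e a b, key w' w e.symm a b⟩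

end Vale.Agent.P343
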