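import Vale.Agent.P343.Box

/-!
Deterministic boxes: ports, fixed signals and the reduction to the level of an idempotent.
-/

namespace Vale.Agent.P343

variable {Q : Type*}

def Det (x : Box Q) : Prop := ∀ p o o', x p o → x p o' → o = o'

theorem Det.mid {f : Bool → Box Q} (hf : ∀ d, Det (f d)) : Det (Mid f) := by
  intro p o o' h h'
  induction h with
  | acc h =>
    cases h' with
    | acc => rfl
    | exit h' => cases hf _ _ _ _ h h'
    | bounce h' => cases hf _ _ _ _ h h'
  | exit h hd =>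
    cases h' with
    | acc h' => cases hf _ _ _ _ h h'
    | exit h' => exact hf _ _ _ _ h h'
    | bounce h' hd' => cases hf _ _ _ _ h h'; exact absurd hd hd'
  | bounce h hd _ ih =>
    cases h' with
    | acc h' => cases hf _ _ _ _ h h'
    | exit h' hd' => cases hf _ _ _ _ h h'; exact absurd hd' hd
    | bounce h' _ hm => cases hf _ _ _ _ h h'; exact ih hm

theorem Det.side {x q : Box Q} (hx : Det x) (hq : Det q) (s d : Bool) : Det (side s x q d) := by
  unfold P343.side; split_ifs <;> assumption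

theorem Det.mul {x y : Box Q} (hx : Det x) (hy : Det y) : Det (x * y) := by
  rintro p o o' ⟨a, h1, h2⟩ ⟨b, h3, h4⟩
  cases hy.side hx _ _ _ _ _ h1 h3
  cases a with
  | none => rw [h2.of_none, h4.of_none]
  | some p' =>
    by_cases hd : p'.1 = p.1
    · exact Det.mid (hy.side hx _) _ _ _ (h2.of_eq hd) (h4.of_eq hd)
    · rw [h2.of_ne hd, h4.of_ne hd]

def ports (x : Box Q) : Set (Bool × Q) := {p | ∃ p' : Bool × Q, p'.1 = p.1 ∧ x p' (some p)}

def fixs (x : Box Q) : Set (Bool × Q) := {p | x p (some p)}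

theorem fixs_sub_ports (x : Box Q) : fixs x ⊆ ports x := fun p h => ⟨p, rfl, h⟩

theorem Mid.exit_ports {f : Bool → Box Q} {p o} (h : Mid f p o) :
    ∀ p', o = some p' → p' ∈ ports (f p'.1) := by
  induction h with
  | acc => rintro _ ⟨⟩
  | exit h hd => rintro _ ⟨⟩; exact ⟨_, hd.symm, hd ▸ h⟩
  | bounce _ _ _ ih => exact ih

theorem ports_mul2 {f : Bool → Box Q} {p} (h : p ∈ ports (Mul2 f)) : p ∈ ports (f p.1) := by
  obtain ⟨p0, hd, o', -, h2⟩ := h
  rcases h2 with ⟨p', -, -, h3⟩ | ⟨h3, rfl⟩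
  · exact h3.exit_ports _ rfl
  · exact absurd hd.symm (h3 _ rfl)

theorem Supp.ports {U : Set (Bool × Q)} {x : Box Q} (hx : Supp U x) : ports x ⊆ U :=
  fun _ ⟨_, _, h⟩ => (hx _ _ h).2 _ rfl

theorem fixs_mul {x y : Box Q} {p} (hx : p ∈ fixs x) (hy : p ∈ fixs y) : p ∈ fixs (x * y) := by
  have h : ∀ d, side true y x d p (some p) := by
    intro d; unfold side; split_ifs <;> assumption
  exact ⟨some p, h _, .go rfl (.exit (h _) rfl)⟩

/-- `x` lies in the local monoid of `q`. -/
def Loc (q x : Box Q) : Prop := q * x = x ∧ x * q = x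

theorem Loc.mul2 {q x : Box Q} (h : Loc q x) (s : Bool) : Mul2 (side s x q) = x := by
  rw [mul2_eq]; cases s
  · simpa [side] using h.2
  · simpa [side] using h.1

theorem Loc.mul {q x y : Box Q} (hx : Loc q x) (hy : Loc q y) : Loc q (x * y) :=
  ⟨by rw [← mul_assoc, hx.1], by rw [mul_assoc, hy.2]⟩

theorem Loc.sandwich {q : Box Q} (hq : q * q = q) (w : Box Q) : Loc q (q * w * q) :=
  ⟨by rw [← mul_assoc, ← mul_assoc, hq], by rw [mul_assoc, hq]⟩

theorem Loc.trans {q r x : Box Q} (h1 : Loc q r) (h2 : Loc r x) : Loc q x :=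
  ⟨by rw [← h2.1, ← mul_assoc, h1.1], by rw [← h2.2, mul_assoc, h1.2]⟩

theorem Loc.ports {q x : Box Q} (h : Loc q x) : ports x ⊆ ports q := by
  intro p hp
  rw [← h.mul2 (!p.1)] at hp
  simpa using ports_mul2 hp

/-- The reduction of `x` to the level of the idempotent `q`. -/
def red (q x : Box Q) : Box Q := fun p o => p ∈ ports q ∧ Mid (side p.1 x q) p o

theorem red_det {q x : Box Q} (hq : Det q) (hx : Det x) : Det (red q x) :=
  fun _ _ _ h h' => Det.mid (hx.side hq _) _ _ _ h.2 h'.2

theorem red_supp {q x : Box Q} (h : Loc q x) : Supp (ports q) (red q x) := by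
  rintro p o ⟨h1, h2⟩
  refine ⟨h1, fun p' hp' => ?_⟩
  have h3 := h2.exit_ports p' hp'
  unfold side at h3
  split_ifs at h3
  · exact h.ports h3
  · exact h3

theorem mid_self {q : Box Q} (hq : q * q = q) (hd : Det q) {p} (hp : p ∈ ports q) :
    Mid (fun _ => q) p (some p) := by
  obtain ⟨p0, h0, h1⟩ := hp
  have h2 := h1
  rw [← hq, mul_def, side_self] at h2
  obtain ⟨o', h3, h4⟩ := h2
  cases hd _ _ _ h1 h3
  exact h4.of_eq h0.symm

theorem red_self {q : Box Q} (hq : q * q = q) (hd : Det q) : red q q = pid (ports q) := by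
  funext p o
  apply propext
  unfold red pid
  rw [side_self]
  refine and_congr_right fun hp => ⟨fun h => ?_, fun h => h ▸ mid_self hq hd hp⟩
  exact Det.mid (fun _ => hd) _ _ _ h (mid_self hq hd hp)

theorem Loc.apply_iff {q x : Box Q} (h : Loc q x) (p o) :
    x p o ↔ ∃ o', q p o' ∧ Cont p.1 (red q x) o' o := by
  conv_lhs => rw [← h.mul2 p.1]
  unfold Mul2
  rw [side_not]
  refine exists_congr fun o' => and_congr_right fun hq => ⟨fun hc => hc.mono ?_, fun hc => hc.mono ?_⟩
  · rintro p' rfl hd hm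
    exact ⟨⟨p, hd.symm, hq⟩, hd ▸ hm⟩
  · rintro p' rfl hd hm
    exact hd ▸ hm.2

theorem red_inj {q x y : Box Q} (hx : Loc q x) (hy : Loc q y) (h : red q x = red q y) : x = y := by
  funext p o
  rw [hx.apply_iff, hy.apply_iff, h]

theorem ports_red {q x : Box Q} (h : Loc q x) : ports (red q x) = ports x := by
  ext p
  constructor
  · rintro ⟨p', hd, hr⟩
    obtain ⟨p0, hd0, h0⟩ := hr.1
    exact ⟨p0, hd0.trans hd, (h.apply_iff _ _).2 ⟨_, h0, .go hd0.symm hr⟩⟩
  · rintro ⟨p0, hd, h0⟩
    obtain ⟨o', -, h2⟩ := (h.apply_iff _ _).1 h0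
    rcases h2 with ⟨p', -, h3, h4⟩ | ⟨h3, rfl⟩
    · exact ⟨p', h3.trans hd, h4⟩
    · exact absurd hd.symm (h3 _ rfl)

theorem mid_red_iff {q : Box Q} {u : Bool → Box Q} (hu : ∀ d, Loc q (u d)) {p} (hp : p ∈ ports q)
    (o) : Mid (fun d => red q (u d)) p o ↔ Mid u p o := by
  have hg : ∀ s, grp u q s = u := by
    intro s
    funext d
    by_cases hd : d = s
    · simp [grp, hd]
    · rw [grp, side_ne hd, inn, (hu _).mul2, bne hd]
  constructor
  · intro h
    clear hp
    induction h with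
    | @acc p h => exact hg p.1 ▸ grp_iff.2 ⟨_, h.2, .none _ _⟩
    | @exit p p' h hd => exact hg p.1 ▸ grp_iff.2 ⟨_, h.2, .stop _ (by simp [hd])⟩
    | @bounce p p' o h hd _ ih =>
      exact hg p.1 ▸ grp_iff.2 ⟨_, h.2, .go (bne hd) (by rw [hg]; exact ih)⟩
  · intro h
    have key : ∀ s p o, Run3 u q s p o →
        ∃ o', Mid (inn u q s) p o' ∧ Cont (!s) (Mid fun d => red q (u d)) o' o := by
      intro s p o h
      induction h with
      | @oacc s p hp h => exact ⟨none, .acc (by simpa [inn, hp] using h), .none _ _⟩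
      | @oexit s p p' hp h hd =>
        exact ⟨_, .exit (by simpa [inn, hp] using h) (hd.trans hp.symm), .stop _ (by simp [hd])⟩
      | @oback s p p' o hp h hd _ ih =>
        obtain ⟨o', h1, h2⟩ := ih
        exact ⟨o', .bounce (by simpa [inn, hp] using h) (hp ▸ hd) h1, h2⟩
      | @iacc s p hp h => exact ⟨none, .acc (by simpa [inn, side_ne hp] using h), .none _ _⟩
      | @istep s p p' o hp h _ ih =>
        have hb : inn u q s p.1 p (some p') := by simpa [inn, side_ne hp] using h
        obtain ⟨o', h1, h2⟩ := ih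
        by_cases hd : p'.1 = s
        · exact ⟨o', .bounce hb (hd ▸ Ne.symm hp) (hd ▸ h1), hd ▸ h2⟩
        · have hd' : p'.1 = p.1 := by rw [bne hd, bne hp]
          exact ⟨_, .exit hb hd', .go (bne hd) (Mid.of_cont ⟨⟨p, hd'.symm, h⟩, h1⟩ h2)⟩
    obtain ⟨o', h1, h2⟩ := key p.1 p o (run3_of_grp (by rw [hg]; exact h))
    exact Mid.of_cont ⟨hp, h1⟩ h2

theorem red_mul2 {q : Box Q} {u : Bool → Box Q} (hu : ∀ d, Loc q (u d)) :
    red q (Mul2 u) = Mul2 (fun d => red q (u d)) := by
  funext p o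
  apply propext
  -- three boxes: `q` on the outside, then `u (!p.1)` in the middle
  let t : Bool → Box Q := side p.1 (u p.1) q
  have e1 : inn t (u (!p.1)) (!p.1) = side p.1 (u (!p.1)) q := by
    rw [inn, side_swap]; simp [t]
  have e2 : inn t (u (!p.1)) p.1 = u := by
    funext d
    by_cases hd : d = p.1
    · simp [inn, t, hd]
    · rw [inn, side_ne hd, bne hd]
  have e3 : grp t (u (!p.1)) (!p.1) = side p.1 (Mul2 u) q := by
    rw [grp, side_swap, Bool.not_not, e2]; simp [t]
  have e4 : grp t (u (!p.1)) p.1 = u := by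
    rw [grp, e1, (hu _).mul2]
    exact e2
  have key := grp_iff (t := t) (b := u (!p.1)) (s := !p.1) (p := p) (o := o)
  rw [e1, e3, Bool.not_not, e4] at key
  unfold red Mul2
  constructor
  · rintro ⟨hp, h⟩
    obtain ⟨o', h1, h2⟩ := key.1 h
    refine ⟨o', ⟨hp, h1⟩, h2.mono ?_⟩
    rintro p' rfl - hm
    exact (mid_red_iff hu ((red_supp (hu _) _ _ ⟨hp, h1⟩).2 _ rfl) _).2 hm
  · rintro ⟨o', ⟨hp, h1⟩, h2⟩
    refine ⟨hp, key.2 ⟨o', h1, h2.mono ?_⟩⟩
    rintro p' rfl - hm
    exact (mid_red_iff hu ((red_supp (hu _) _ _ ⟨hp, h1⟩).2 _ rfl) _).1 hm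

theorem red_mul {q x y : Box Q} (hx : Loc q x) (hy : Loc q y) :
    red q (x * y) = red q x * red q y := by
  rw [mul_def, red_mul2 (u := side true y x) (fun d => by cases d <;> simpa [side]), mul2_eq]
  simp [side]

theorem red_red {g q x : Box Q} (hq : Loc g q) (hx : Loc g x) :
    red (red g q) (red g x) = red q x := by
  funext p o
  apply propext
  unfold red
  rw [show ports (fun p o => p ∈ ports g ∧ Mid (side p.1 q g) p o) = ports q from ports_red hq]
  refine and_congr_right fun hp => ?_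
  rw [← mid_red_iff (q := g) (u := side p.1 x q)
    (fun d => by unfold side; split_ifs <;> assumption) (hq.ports hp)]
  have : (fun d => red g (side p.1 x q d)) = side p.1 (red g x) (red g q) := by
    funext d; unfold side; split_ifs <;> rfl
  rw [this]
  rfl

/-- Runs with different outputs are disjoint. -/
theorem exists_avoid [Finite Q] {U : Set (Bool × Q)} {f : Bool → Box Q} (hd : ∀ d, Det (f d))
    (hU : ∀ d, Supp U (f d)) (D : Set (Bool × Q)) :
    ∃ N : Set (Bool × Q), N.ncard ≤ D.ncard ∧ ∀ w : Box Q, U \ D ⊆ fixs w →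
      ∀ p ∈ U, ∀ p' ∉ N, Mid f p (some p') → Mid (grp f w (!p.1)) p (some p') := by
  let N : Set (Bool × Q) := {p | ∃ d ∈ D, Mid f d (some p)}
  refine ⟨N, ?_, fun w hw => ?_⟩
  · have h1 : ∀ p : N, ∃ d ∈ D, Mid f d (some p) := fun p => p.2
    choose k hk1 hk2 using h1
    have hinj : Function.Injective fun p : N => (⟨k p, hk1 p⟩ : D) := by
      intro p p' h
      have h' : k p = k p' := congrArg Subtype.val h
      have h2 := hk2 p
      rw [h'] at h2
      exact Subtype.ext (Option.some.inj (Det.mid hd _ _ _ h2 (hk2 p')))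
    exact Nat.card_le_card_of_injective _ hinj
  · have key : ∀ p o, Mid f p o → p ∈ U → (∀ d ∈ D, ¬ Mid f d o) →
        Mid (grp f w (!p.1)) p o := by
      intro p o h
      induction h with
      | @acc p h =>
        intro hpU hp
        refine (grp_enter (by simp)).2
          (Or.inr ⟨p, hw ⟨hpU, fun h' => hp _ h' (.acc h)⟩, .acc ?_⟩)
        simpa [grp] using h
      | @exit p p' h hd =>
        intro hpU hp
        refine (grp_enter (by simp)).2
          (Or.inr ⟨p, hw ⟨hpU, fun h' => hp _ h' (.exit h hd)⟩, .exit ?_ hd⟩)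
        simpa [grp] using h
      | @bounce p p' o h hd hm ih =>
        intro hpU hp
        refine (grp_enter (by simp)).2 (Or.inr
          ⟨p, hw ⟨hpU, fun h' => hp _ h' (.bounce h hd hm)⟩, .bounce (p' := p') ?_ hd ?_⟩)
        · simpa [grp] using h
        · have := ih ((hU _ _ _ h).2 _ rfl) hp
          rwa [bne hd, Bool.not_not] at this
    exact fun p hp p' hp' h => key p _ h hp fun d hd hm => hp' ⟨d, hd, hm⟩

/-- The cut lemma at the level of a local identity. -/
theorem exists_cut_pid [Finite Q] {U : Set (Bool × Q)} {q L R : Box Q} (hL : Det L) (hR : Det R)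
    (hLU : Supp U L) (hRU : Supp U R) (hq : L * R = q) (hqL : q * L = L) (hRq : R * q = R)
    (D : Set (Bool × Q)) :
    ∃ N : Set (Bool × Q), N.ncard ≤ D.ncard ∧ ∀ w : Box Q, U \ D ⊆ fixs w →
      ports q \ N ⊆ fixs (red q (L * w * R)) := by
  obtain ⟨N, hN, H⟩ := exists_avoid (f := side true R L) (U := U) (hR.side hL _)
    (fun d => by cases d <;> simpa [side]) D
  refine ⟨N, hN, fun w hw => ?_⟩
  rintro p ⟨hp, hpN⟩
  have hqq : q * q = q := by
    conv_lhs => rhs; rw [← hq]
    rw [← mul_assoc, hqL, hq]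
  have h1 := mid_self hqq (hq ▸ hL.mul hR) hp
  refine ⟨hp, ?_⟩
  rw [← side_self true q] at h1
  obtain ⟨d, p⟩ := p
  cases d
  · have h2 := (grp_iff (t := side true q L) (b := R) (s := true) (p := (false, p))
      (o := some (false, p))).1 (by rw [grp_true', hq]; exact h1)
    simp only [Bool.not_true, inn_true, grp_false', hRq] at h2
    obtain ⟨o', h3, h4⟩ := h2
    rcases h4 with ⟨p', rfl, h5, h6⟩ | ⟨h5, rfl⟩
    · have h7 := H w hw p' (hRU.ports (by simpa [h5, side] using h3.exit_ports _ rfl)) _ hpN h6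
      simp only [h5, Bool.not_false, grp_true'] at h7
      have h8 := (grp_iff (t := side true q (L * w)) (b := R) (s := true)).2
        ⟨_, by rw [inn_true]; exact h3, .go h5 (by
          simp only [Bool.not_true, grp_false', hRq]; exact h7)⟩
      rw [grp_true'] at h8
      rw [← side_swap]
      exact h8
    · exact absurd rfl (h5 _ rfl)
  · have h2 := (grp_iff (t := side true R q) (b := L) (s := false) (p := (true, p))
      (o := some (true, p))).1 (by rw [grp_false', hq]; exact h1)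
    simp only [Bool.not_false, inn_false, grp_true', hqL] at h2
    obtain ⟨o', h3, h4⟩ := h2
    rcases h4 with ⟨p', rfl, h5, h6⟩ | ⟨h5, rfl⟩
    · have h7 := H w hw p' (hLU.ports (by simpa [h5, side] using h3.exit_ports _ rfl)) _ hpN h6
      simp only [h5, Bool.not_true, grp_false'] at h7
      have h8 := (grp_iff (t := side true (w * R) q) (b := L) (s := false)).2
        ⟨_, by rw [inn_false]; exact h3, .go h5 (by
          simp only [Bool.not_false, grp_true', hqL]; exact h7)⟩
      rw [grp_false', ← mul_assoc] at h8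
      exact h8
    · exact absurd rfl (h5 _ rfl)

/-- The ports of `g` fixed by `x` at the level of `g`. -/
def Fx (g x : Box Q) : Set (Bool × Q) := fixs (red g x)

theorem Fx_mul {g x y : Box Q} (hx : Loc g x) (hy : Loc g y) {p} (h1 : p ∈ Fx g x)
    (h2 : p ∈ Fx g y) : p ∈ Fx g (x * y) := by
  unfold Fx
  rw [red_mul hx hy]
  exact fixs_mul h1 h2

theorem Fx_sub {g x : Box Q} (hx : Loc g x) : Fx g x ⊆ ports x :=
  ports_red hx ▸ fixs_sub_ports _

theorem Fx_self {g : Box Q} (hg : g * g = g) (hd : Det g) : ports g ⊆ Fx g g := by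
  unfold Fx
  rw [red_self hg hd]
  exact fun p hp => ⟨hp, rfl⟩

/-- The cut lemma. -/
theorem exists_cut [Finite Q] {g q L R : Box Q} (hg : Det g) (hL : Det L) (hR : Det R)
    (hgL : Loc g L) (hgR : Loc g R) (hq : L * R = q) (hqL : q * L = L) (hRq : R * q = R)
    (D : Set (Bool × Q)) :
    ∃ N : Set (Bool × Q), N.ncard ≤ D.ncard ∧ ∀ w : Box Q, Loc g w → ports g \ D ⊆ Fx g w →
      ports q \ N ⊆ Fx q (L * w * R) := by
  have hgq : Loc g q := hq ▸ hgL.mul hgR
  obtain ⟨N, hN, H⟩ := exists_cut_pid (q := red g q) (red_det hg hL) (red_det hg hR)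
    (red_supp hgL) (red_supp hgR) (by rw [← red_mul hgL hgR, hq])
    (by rw [← red_mul hgq hgL, hqL]) (by rw [← red_mul hgR hgq, hRq]) D
  refine ⟨N, hN, fun w hw h => ?_⟩
  have := H _ h
  rwa [← red_mul hgL hw, ← red_mul (hgL.mul hw) hgR, red_red hgq ((hgL.mul hw).mul hgR),
    ports_red hgq] at this

theorem eq_pid {U : Set (Bool × Q)} {x : Box Q} (hd : Det x) (hU : Supp U x) (h : U ⊆ fixs x) :
    x = pid U := by
  funext p o
  apply propext
  constructor
  · intro hx
    exact ⟨(hU _ _ hx).1, hd _ _ _ hx (h (hU _ _ hx).1)⟩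
  · rintro ⟨hp, rfl⟩
    exact h hp

/-- The damage of an idempotent is at most twice its rank defect. -/
theorem dam_idem [Finite Q] {U : Set (Bool × Q)} {y : Box Q} (hy : y * y = y) (hd : Det y)
    (hU : Supp U y) : (U \ fixs y).ncard + 2 * (ports y).ncard ≤ 2 * U.ncard := by
  have h1 : ∀ p : (ports y \ fixs y : Set _), ∃ l ∈ U \ ports y,
      Mid (fun _ => y) l (some p) := by
    rintro ⟨p, hp, hf⟩
    have h := mid_self hy hd hp
    cases h with
    | exit h => exact absurd h hf
    | @bounce _ l _ h hl hm =>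
      refine ⟨l, ⟨(hU _ _ h).2 _ rfl, fun hl' => hl ?_⟩, hm⟩
      cases Det.mid (fun _ => hd) _ _ _ hm (mid_self hy hd hl')
      rfl
  choose f hf1 hf2 using h1
  have hinj : Function.Injective fun p => (⟨f p, hf1 p⟩ : (U \ ports y : Set _)) := by
    intro p p' h
    have h' : f p = f p' := congrArg Subtype.val h
    have h2 := hf2 p
    rw [h'] at h2
    exact Subtype.ext (Option.some.inj (Det.mid (fun _ => hd) _ _ _ h2 (hf2 p')))
  have h2 : (ports y \ fixs y).ncard ≤ (U \ ports y).ncard :=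
    Nat.card_le_card_of_injective _ hinj
  have h3 : (U \ fixs y).ncard ≤ (U \ ports y).ncard + (ports y \ fixs y).ncard := by
    refine (Set.ncard_le_ncard ?_).trans (Set.ncard_union_le _ _)
    rintro p ⟨hp, hf⟩
    by_cases h : p ∈ ports y
    · exact Or.inr ⟨h, hf⟩
    · exact Or.inl ⟨hp, h⟩
  have h4 := Set.ncard_sdiff_add_ncard_of_subset hU.ports
  omega

theorem dam_idem' [Finite Q] {g y : Box Q} (hg : Det g) (hy : y * y = y) (hd : Det y)
    (h : Loc g y) : (ports g \ Fx g y).ncard + 2 * (ports y).ncard ≤ 2 * (ports g).ncard := by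
  have := dam_idem (y := red g y) (by rw [← red_mul h h, hy]) (red_det hg hd) (red_supp h)
  rwa [ports_red h] at this

theorem eq_of_Fx {g y : Box Q} (hg : g * g = g) (hdg : Det g) (hd : Det y) (h : Loc g y)
    (hF : ports g ⊆ Fx g y) : y = g :=
  red_inj h ⟨hg, hg⟩ (by rw [red_self hg hdg]; exact eq_pid (red_det hdg hd) (red_supp h) hF)

theorem exists_idem {M : Type*} [Monoid M] [Finite M] (T : M → Prop)
    (hT : ∀ x y, T x → T y → T (x * y)) {x : M} (hx : T x) : ∃ y, T y ∧ y * y = y := by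
  have hp : ∀ n, T (x ^ (n + 1)) := by
    intro n
    induction n with
    | zero => simpa using hx
    | succ n ih => rw [pow_succ]; exact hT _ _ ih hx
  obtain ⟨a, b, hab, h⟩ := Finite.exists_ne_map_eq_of_infinite fun n : ℕ => x ^ n
  wlog hlt : a < b generalizing a b
  · exact this b a hab.symm h.symm (by omega)
  obtain ⟨d, rfl⟩ := Nat.exists_eq_add_of_lt hlt
  have h1 : ∀ t, x ^ (a + (d + 1) * t) = x ^ a := by
    intro t
    induction t with
    | zero => simp
    | succ t ih =>
      have : a + (d + 1) * (t + 1) = (a + d + 1) + (d + 1) * t := by ring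
      rw [this, pow_add, ← h, ← pow_add, ih]
  refine ⟨x ^ ((d + 1) * (a + 1)), ?_, ?_⟩
  · have : (d + 1) * (a + 1) = (d * (a + 1) + a) + 1 := by ring
    rw [this]; exact hp _
  · rw [← pow_add]
    have e1 : (d + 1) * (a + 1) + (d + 1) * (a + 1)
        = (a + (d + 1) * (a + 1)) + (d * (a + 1) + 1) := by ring
    have e2 : (d + 1) * (a + 1) = a + (d * (a + 1) + 1) := by ring
    rw [e1, pow_add, h1, ← pow_add, ← e2]

end Vale.Agent.P343
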